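import Vale.Agent.P272.K.H.Res
import Vale.Agent.P272.K.MP.Local
import Vale.Agent.P272.K.V.Const

/-! Uniqueness of bounded solutions on the whole space, and consequences. -/

open MeasureTheory Real Set Filter Topology
open scoped RealInnerProductSpace ContDiff

noncomputable section

set_option maxSynthPendingDepth 3
set_option linter.unusedSectionVars false

namespace Vale.Agent.P272.K.H

open Vale.Agent.P272.K.LIN

variable {E : Type*} [NormedAddCommGroup E] [InnerProductSpace ℝ E] [FiniteDimensional ℝ E]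
variable {ι : Type} [Fintype ι] {f v : E → ℝ} {A B M a l : ℝ}

theorem fderiv_norm_sq' : fderiv ℝ (fun x : E => ‖x‖ ^ 2) = fun x => 2 • innerSL ℝ x := by
  funext x
  simpa using (hasStrictFDerivAt_norm_sq x).hasFDerivAt.fderiv

theorem fderiv2_norm_sq (x u w : E) :
    fderiv ℝ (fderiv ℝ (fun x : E => ‖x‖ ^ 2)) x u w = 2 * ⟪u, w⟫ := by
  rw [fderiv_norm_sq']
  have h : HasFDerivAt (fun x : E => 2 • innerSL ℝ x) (2 • (innerSL ℝ : E →L[ℝ] E →L[ℝ] ℝ)) x :=
    ((innerSL ℝ : E →L[ℝ] E →L[ℝ] ℝ).hasFDerivAt (x := x)).const_smul 2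
  rw [h.fderiv]
  have : ((2 • (innerSL ℝ : E →L[ℝ] E →L[ℝ] ℝ)) u) w = 2 • ⟪u, w⟫ := rfl
  rw [this]; simp

/-- The maximum principle for bounded functions on the whole space. -/
theorem le_of_op_le (b : OrthonormalBasis ι ℝ E) (hv : ContDiff ℝ 2 v) (hM : ∀ x, v x ≤ M)
    (hl : 0 < l)
    (h : ∀ x, l * v x - ∑ i, fderiv ℝ (fderiv ℝ v) x (b i) (b i) ≤ A) (x : E) :
    l * v x ≤ A := by
  have key : ∀ ε : ℝ, 0 < ε → l * v x ≤ A + ε * (2 * Fintype.card ι + l * ‖x‖ ^ 2) := by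
    intro ε hε
    set w : E → ℝ := fun y => v y - ε * ‖y‖ ^ 2 with hw
    have hq : ContDiff ℝ 2 (fun y : E => ‖y‖ ^ 2) := contDiff_id.norm_sq ℝ
    have hwc : ContDiff ℝ 2 w := hv.sub (contDiff_const.mul hq)
    have hlim : Tendsto w (cocompact E) atBot := by
      have h1 : Tendsto (fun y : E => ‖y‖ ^ 2) (cocompact E) atTop :=
        (tendsto_pow_atTop (by norm_num)).comp (tendsto_norm_cocompact_atTop (E := E))
      have h2 : Tendsto (fun y : E => M + -(ε * ‖y‖ ^ 2)) (cocompact E) atBot := by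
        refine tendsto_atBot_add_const_left _ _ ?_
        exact tendsto_neg_atTop_atBot.comp (h1.const_mul_atTop hε)
      refine tendsto_atBot_mono (fun y => ?_) h2
      simp only [hw]
      have := hM y
      linarith
    obtain ⟨x0, hx0⟩ := hwc.continuous.exists_forall_ge hlim
    have hmax : IsLocalMax w x0 := Filter.Eventually.of_forall hx0
    have hD2 : ∀ u, fderiv ℝ (fderiv ℝ w) x0 u u =
        fderiv ℝ (fderiv ℝ v) x0 u u - ε * (2 * ⟪u, u⟫) := by
      intro u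
      have d1 : fderiv ℝ w = fun y => fderiv ℝ v y - ε • fderiv ℝ (fun y : E => ‖y‖ ^ 2) y := by
        funext y
        have e1 := (hv.differentiable (by norm_num) y).hasFDerivAt
        have e2 := ((hq.differentiable (by norm_num) y).hasFDerivAt).const_mul ε
        exact (e1.sub e2).fderiv
      have e1 : HasFDerivAt (fderiv ℝ v) (fderiv ℝ (fderiv ℝ v) x0) x0 :=
        ((hv.fderiv_right (m := 1) (by norm_num)).differentiable (by norm_num) x0).hasFDerivAt
      have e2 : HasFDerivAt (fderiv ℝ (fun y : E => ‖y‖ ^ 2))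
          (fderiv ℝ (fderiv ℝ (fun y : E => ‖y‖ ^ 2)) x0) x0 :=
        ((hq.fderiv_right (m := 1) (by norm_num)).differentiable (by norm_num) x0).hasFDerivAt
      have e4 : HasFDerivAt (fun y => fderiv ℝ v y - ε • fderiv ℝ (fun y : E => ‖y‖ ^ 2) y)
          (fderiv ℝ (fderiv ℝ v) x0 - ε • fderiv ℝ (fderiv ℝ (fun y : E => ‖y‖ ^ 2)) x0) x0 :=
        e1.sub (e2.const_smul ε)
      rw [d1, e4.fderiv]
      have e3 : (fderiv ℝ (fderiv ℝ v) x0 - ε • fderiv ℝ (fderiv ℝ (fun y : E => ‖y‖ ^ 2)) x0)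
          u u = fderiv ℝ (fderiv ℝ v) x0 u u -
            ε * fderiv ℝ (fderiv ℝ (fun y : E => ‖y‖ ^ 2)) x0 u u := rfl
      rw [e3, fderiv2_norm_sq]
    have h3 : ∀ i, fderiv ℝ (fderiv ℝ v) x0 (b i) (b i) ≤ 2 * ε := by
      intro i
      have h4 := MP.fderiv2_nonpos_of_max hmax hwc.contDiffAt (b i)
      have h5 : ⟪b i, b i⟫ = 1 := by
        rw [real_inner_self_eq_norm_sq, b.norm_eq_one]; norm_num
      rw [hD2, h5] at h4
      linarith
    have h6 : ∑ i, fderiv ℝ (fderiv ℝ v) x0 (b i) (b i) ≤ Fintype.card ι * (2 * ε) := by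
      calc _ ≤ ∑ _i : ι, 2 * ε := Finset.sum_le_sum fun i _ => h3 i
        _ = _ := by simp
    have h7 := h x0
    have h8 : v x - ε * ‖x‖ ^ 2 ≤ v x0 := by
      have h9 := hx0 x
      simp only [hw] at h9
      have : 0 ≤ ε * ‖x0‖ ^ 2 := by positivity
      linarith
    have h10 : l * (v x - ε * ‖x‖ ^ 2) ≤ l * v x0 := mul_le_mul_of_nonneg_left h8 hl.le
    nlinarith
  have hlim : Tendsto (fun ε : ℝ => A + ε * (2 * Fintype.card ι + l * ‖x‖ ^ 2)) (𝓝[>] 0)
      (𝓝 (A + 0 * (2 * Fintype.card ι + l * ‖x‖ ^ 2))) := by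
    refine Tendsto.mono_left (Continuous.tendsto (by fun_prop) 0) nhdsWithin_le_nhds
  rw [zero_mul, add_zero] at hlim
  exact ge_of_tendsto hlim (eventually_nhdsWithin_of_forall fun ε hε => key ε hε)

theorem fderiv2_neg (v : E → ℝ) (x : E) :
    fderiv ℝ (fderiv ℝ (fun y => -v y)) x = -fderiv ℝ (fderiv ℝ v) x := by
  have h1 : fderiv ℝ (fun y => -v y) = fun y => -fderiv ℝ v y := by
    funext y; exact fderiv_fun_neg
  rw [h1]; exact fderiv_fun_neg

/-- The sup norm bound for bounded solutions. -/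
theorem abs_le_of_op_abs_le (b : OrthonormalBasis ι ℝ E) (hv : ContDiff ℝ 2 v)
    (hM : ∀ x, |v x| ≤ M) (hl : 0 < l)
    (h : ∀ x, |l * v x - ∑ i, fderiv ℝ (fderiv ℝ v) x (b i) (b i)| ≤ A) (x : E) :
    l * |v x| ≤ A := by
  have h1 := le_of_op_le b hv (fun x => (le_abs_self _).trans (hM x)) hl
    (fun x => (le_abs_self _).trans (h x)) x
  have h2 := le_of_op_le b (v := fun y => -v y) (M := M) (A := A) hv.neg
    (fun x => (neg_le_abs _).trans (hM x)) hl (fun x => by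
      rw [fderiv2_neg]
      have h3 : ∑ i, (-fderiv ℝ (fderiv ℝ v) x) (b i) (b i) =
          -∑ i, fderiv ℝ (fderiv ℝ v) x (b i) (b i) := by
        rw [← Finset.sum_neg_distrib]
        rfl
      rw [h3]
      have h4 := (neg_le_abs (l * v x - ∑ i, fderiv ℝ (fderiv ℝ v) x (b i) (b i))).trans (h x)
      linarith) x
  rcases abs_cases (v x) with ⟨h3, _⟩ | ⟨h3, _⟩
  · rw [h3]; exact h1
  · rw [h3]; exact h2

theorem fderiv2_sub {u : E → ℝ} (hv : ContDiff ℝ 2 v) (hu : ContDiff ℝ 2 u) (x : E) :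
    fderiv ℝ (fderiv ℝ (fun y => v y - u y)) x =
      fderiv ℝ (fderiv ℝ v) x - fderiv ℝ (fderiv ℝ u) x := by
  have h1 : fderiv ℝ (fun y => v y - u y) = fun y => fderiv ℝ v y - fderiv ℝ u y := by
    funext y
    exact fderiv_fun_sub (hv.differentiable (by norm_num) y) (hu.differentiable (by norm_num) y)
  rw [h1]
  exact fderiv_fun_sub
    ((hv.fderiv_right (m := 1) (by norm_num)).differentiable (by norm_num) x)
    ((hu.fderiv_right (m := 1) (by norm_num)).differentiable (by norm_num) x)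

/-- Bounded solutions of the same equation agree. -/
theorem eq_of_op_eq (b : OrthonormalBasis ι ℝ E) {u : E → ℝ} {M' : ℝ} (hv : ContDiff ℝ 2 v)
    (hM : ∀ x, |v x| ≤ M) (hu : ContDiff ℝ 2 u) (hM' : ∀ x, |u x| ≤ M') (hl : 0 < l)
    (h : ∀ x, l * v x - ∑ i, fderiv ℝ (fderiv ℝ v) x (b i) (b i) =
      l * u x - ∑ i, fderiv ℝ (fderiv ℝ u) x (b i) (b i)) : v = u := by
  funext x
  have h1 := abs_le_of_op_abs_le (A := 0) (M := M + M') b (v := fun y => v y - u y) (hv.sub hu)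
    (fun x => (abs_sub _ _).trans (add_le_add (hM x) (hM' x))) hl (fun x => by
      rw [fderiv2_sub hv hu]
      have h3 : ∑ i, (fderiv ℝ (fderiv ℝ v) x - fderiv ℝ (fderiv ℝ u) x) (b i) (b i) =
          ∑ i, fderiv ℝ (fderiv ℝ v) x (b i) (b i) -
            ∑ i, fderiv ℝ (fderiv ℝ u) x (b i) (b i) := by
        rw [← Finset.sum_sub_distrib]
        rfl
      rw [h3]
      have h4 := h x
      have h5 : l * (v x - u x) - (∑ i, fderiv ℝ (fderiv ℝ v) x (b i) (b i) -
        ∑ i, fderiv ℝ (fderiv ℝ u) x (b i) (b i)) = 0 := by linarith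
      rw [h5, abs_zero]) x
  have h2 : |v x - u x| ≤ 0 := by
    by_contra hcon
    push Not at hcon
    have : 0 < l * |v x - u x| := mul_pos hl hcon
    linarith
  have := abs_nonpos_iff.1 h2
  linarith

variable [MeasurableSpace E] [BorelSpace E]

variable (E) in
/-- The constants of `resolvent`, with uniqueness: every bounded `C²` solution satisfies the
weighted bounds. -/
theorem resolvent_bounds (ha0 : 0 < a) (ha1 : a < 1) :
    ∃ C : ℝ, 0 < C ∧ ∀ (ι : Type) [Fintype ι] (b : OrthonormalBasis ι ℝ E) (l : ℝ), 0 < l →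
      ∀ (v : E → ℝ) (M A B : ℝ), ContDiff ℝ 2 v → (∀ x, |v x| ≤ M) → 0 ≤ B →
      HB a (fun x => l * v x - ∑ i, fderiv ℝ (fderiv ℝ v) x (b i) (b i)) A B →
      ResBd a l C (l ^ (a / 2) * A + B) v := by
  obtain ⟨C, hC, h⟩ := resolvent E ha0 ha1
  refine ⟨C, hC, fun ι _ b l hl v M A B hv hM hB hf => ?_⟩
  obtain ⟨h1, h2, h3⟩ := h l hl _ A B hB hf
  have : v = res l (fun x => l * v x - ∑ i, fderiv ℝ (fderiv ℝ v) x (b i) (b i)) :=
    eq_of_op_eq b hv hM h1 (fun x => by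
      have := h3.zero.sup x
      rwa [Real.norm_eq_abs] at this) hl fun x => (h2 ι b x).symm
  rw [← this] at h3
  exact h3

variable (E) in
/-- Hölder bound of the second derivatives by the Laplacian. -/
theorem holder_fderiv2_le (ha0 : 0 < a) (ha1 : a < 1) :
    ∃ C : ℝ, 0 < C ∧ ∀ (ι : Type) [Fintype ι] (b : OrthonormalBasis ι ℝ E)
      (v : E → ℝ) (M K A B : ℝ), ContDiff ℝ 2 v → 0 ≤ B → 0 ≤ K → HB a v M K →
      HB a (fun x => ∑ i, fderiv ℝ (fderiv ℝ v) x (b i) (b i)) A B →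
      ∀ x y, ‖fderiv ℝ (fderiv ℝ v) x - fderiv ℝ (fderiv ℝ v) y‖ ≤ C * B * ‖x - y‖ ^ a := by
  obtain ⟨C, hC, h⟩ := resolvent_bounds E ha0 ha1
  refine ⟨C, hC, fun ι _ b v M K A B hv hB hK hvH hf x y => ?_⟩
  have key : ∀ l : ℝ, 0 < l → ‖fderiv ℝ (fderiv ℝ v) x - fderiv ℝ (fderiv ℝ v) y‖ ≤
      C * (l ^ (a / 2) * (l * M + A) + (l * K + B)) * ‖x - y‖ ^ a := by
    intro l hl
    have hM : ∀ x, |v x| ≤ M := fun x => by
      have := hvH.sup x
      rwa [Real.norm_eq_abs] at this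
    have := h ι b l hl v M (l * M + A) (l * K + B) hv hM (by positivity) ⟨fun x => ?_, fun x y => ?_⟩
    · exact this.two.hol x y
    · refine (norm_sub_le _ _).trans (add_le_add ?_ (hf.sup x))
      rw [norm_mul, Real.norm_of_nonneg hl.le]
      exact mul_le_mul_of_nonneg_left (hvH.sup x) hl.le
    · have e : l * v x - ∑ i, fderiv ℝ (fderiv ℝ v) x (b i) (b i) -
          (l * v y - ∑ i, fderiv ℝ (fderiv ℝ v) y (b i) (b i)) =
          l * (v x - v y) - (∑ i, fderiv ℝ (fderiv ℝ v) x (b i) (b i) -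
            ∑ i, fderiv ℝ (fderiv ℝ v) y (b i) (b i)) := by ring
      rw [e]
      refine (norm_sub_le _ _).trans ?_
      rw [norm_mul, Real.norm_of_nonneg hl.le, add_mul, mul_assoc]
      exact add_le_add (mul_le_mul_of_nonneg_left (hvH.hol x y) hl.le) (hf.hol x y)
  have hlim : Tendsto (fun l : ℝ => C * (l ^ (a / 2) * (l * M + A) + (l * K + B)) *
      ‖x - y‖ ^ a) (𝓝[>] 0)
      (𝓝 (C * ((0 : ℝ) ^ (a / 2) * (0 * M + A) + (0 * K + B)) * ‖x - y‖ ^ a)) := by
    refine Tendsto.mono_left (Continuous.tendsto ?_ 0) nhdsWithin_le_nhds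
    have : Continuous fun l : ℝ => l ^ (a / 2) :=
      continuous_id.rpow_const fun _ => Or.inr (by positivity)
    fun_prop
  rw [Real.zero_rpow (by positivity), zero_mul, zero_mul, zero_add, zero_add] at hlim
  exact ge_of_tendsto hlim (eventually_nhdsWithin_of_forall fun l hl => key l hl)

/-- Block H in the form used by block V. -/
theorem resolventH (m : ℕ) (ha0 : 0 < a) (ha1 : a < 1) : V.ResolventH m a := by
  obtain ⟨C, hC, h⟩ := resolvent (EuclideanSpace ℝ (Fin m)) ha0 ha1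
  refine ⟨C, hC.le, fun l hl f A B hB hf => ?_⟩
  obtain ⟨h1, h2, h3⟩ := h l (by linarith) f A B hB hf
  refine ⟨_, h1, fun x => ?_, h3⟩
  have := h2 (Fin m) (EuclideanSpace.basisFun (Fin m) ℝ) x
  simpa using this

end Vale.Agent.P272.K.H
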