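import Vale.Agent.P272.K.H.Heat

open MeasureTheory Real Set Filter Topology
open scoped RealInnerProductSpace ContDiff

noncomputable section

set_option linter.unusedSectionVars false
set_option linter.unusedSimpArgs false

namespace Vale.Agent.P272.K.H

open Vale.Agent.P272.K.LIN

variable {E : Type*} [NormedAddCommGroup E] [InnerProductSpace ℝ E] [FiniteDimensional ℝ E]
  [MeasurableSpace E] [BorelSpace E]

/-- The resolvent of the Laplacian. -/
def res (l : ℝ) (f : E → ℝ) : E → ℝ := sint (wt l 1) (Gk q0) f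

/-- The derivative of the resolvent. -/
def res1 (l : ℝ) (f : E → ℝ) : E → E →L[ℝ] ℝ := sint (wt l 0) (Gk q1) f

/-- The second derivative of the resolvent. -/
def res2 (l : ℝ) (f : E → ℝ) : E → E →L[ℝ] E →L[ℝ] ℝ := sint (wt l (-1)) (Gk q2) f

variable {f : E → ℝ} {A B a l : ℝ}

theorem bd0 (hA : ∀ x, |f x| ≤ A) (s : ℝ) (x : E) :
    ‖avg (Gk q0) s f x‖ ≤ (A * ∫ z : E, ‖Gk q0 z‖) * s ^ (0 : ℝ) := by
  rw [Real.rpow_zero, mul_one]
  exact norm_avg_le (kern_Gk tg0) hA s x

theorem bd1 (ha0 : 0 < a) (ha1 : a < 1) (hA : ∀ x, |f x| ≤ A) (hB : HolB a B f) {s : ℝ}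
    (hs : 0 < s) (x : E) :
    ‖avg (Gk q1) s f x‖ ≤ (B * ∫ z : E, ‖z‖ ^ a * ‖Gk q1 z‖) * s ^ a := by
  have h := norm_avg_le_hol (kern_Gk tg1) integral_k1 (hB.continuous ha0) hA ha0.le ha1.le hB s x
  rw [abs_of_pos hs] at h
  linarith

theorem bd2 (ha0 : 0 < a) (ha1 : a < 1) (hA : ∀ x, |f x| ≤ A) (hB : HolB a B f) {s : ℝ}
    (hs : 0 < s) (x : E) :
    ‖avg (Gk q2) s f x‖ ≤ (B * ∫ z : E, ‖z‖ ^ a * ‖Gk q2 z‖) * s ^ a := by
  have h := norm_avg_le_hol (kern_Gk tg2) integral_k2 (hB.continuous ha0) hA ha0.le ha1.le hB s x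
  rw [abs_of_pos hs] at h
  linarith

theorem hasFDerivAt_res (ha0 : 0 < a) (ha1 : a < 1) (hl : 0 < l) (hA : ∀ x, |f x| ≤ A)
    (hB : HolB a B f) (x : E) : HasFDerivAt (res l f) (res1 l f x) x := by
  have h := hasFDerivAt_sint (l := l) (β := 1) (γ := 0) (γ' := a) (kern_Gk tg0) (kern_Gk tg1)
    (hasFDerivAt_Gk tg0) (hB.continuous ha0) hA hl (by norm_num) (by linarith)
    (fun s _ x => bd0 hA s x) (fun s hs x => bd1 ha0 ha1 hA hB hs x) x
  rw [sub_self] at h
  exact h

theorem hasFDerivAt_res1 (ha0 : 0 < a) (ha1 : a < 1) (hl : 0 < l) (hA : ∀ x, |f x| ≤ A)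
    (hB : HolB a B f) (x : E) : HasFDerivAt (res1 l f) (res2 l f x) x := by
  have h := hasFDerivAt_sint (l := l) (β := 0) (γ := a) (γ' := a) (kern_Gk tg1) (kern_Gk tg2)
    (hasFDerivAt_Gk tg1) (hB.continuous ha0) hA hl (by linarith) (by linarith)
    (fun s hs x => bd1 ha0 ha1 hA hB hs x) (fun s hs x => bd2 ha0 ha1 hA hB hs x) x
  rw [zero_sub] at h
  exact h

theorem L1_nonneg {F : Type*} [NormedAddCommGroup F] (k : E → F) : 0 ≤ ∫ z : E, ‖k z‖ :=
  integral_nonneg fun _ => norm_nonneg _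

theorem mom_nonneg {F : Type*} [NormedAddCommGroup F] (k : E → F) (a : ℝ) :
    0 ≤ ∫ z : E, ‖z‖ ^ a * ‖k z‖ :=
  integral_nonneg fun _ => mul_nonneg (Real.rpow_nonneg (norm_nonneg _) _) (norm_nonneg _)

/-- The resolvent equation, abstract form. -/
theorem res_eq_aux {F : Type*} [NormedAddCommGroup F] [NormedSpace ℝ F] [CompleteSpace F]
    {k : E → F} (hk : Kern k) (h0 : ∫ z, k z = 0) (L : F →L[ℝ] ℝ)
    (hL : ∀ z, L (k z) = 1 / 2 * kap z) (ha0 : 0 < a) (ha1 : a < 1)
    (hl : 0 < l) (hA : ∀ x, |f x| ≤ A) (hB : HolB a B f) (x : E) :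
    l * res l f x - L (sint (wt l (-1)) k f x) = f x := by
  have hf := hB.continuous ha0
  have bd : ∀ s, 0 < s → ‖avg k s f x‖ ≤ (B * ∫ z : E, ‖z‖ ^ a * ‖k z‖) * s ^ a := by
    intro s hs
    have h := norm_avg_le_hol hk h0 (hB.continuous ha0) hA ha0.le ha1.le hB s x
    rw [abs_of_pos hs] at h
    linarith
  set Φ : ℝ → ℝ := fun s => Real.exp (-l * s ^ 2) * avg (Gk q0) s f x with hΦ
  set Φ' : ℝ → ℝ := fun s => L (wt l (-1) s • avg k s f x) -
    l * (wt l 1 s • avg (Gk q0) s f x) with hΦ'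
  have hcont : Continuous Φ := by
    have := continuous_avg_s (kern_Gk (E := E) tg0) hf hA x
    fun_prop
  have htr : ∀ s, L (avg k s f x) = 1 / 2 * avg kap s f x := by
    intro s
    unfold avg
    rw [← ContinuousLinearMap.integral_comp_comm _ (integrable_avg hk hf hA s x),
      ← integral_const_mul]
    congr 1
    ext z
    rw [map_smul, hL]
    simp only [smul_eq_mul]
    ring
  have hderiv : ∀ s ∈ Ioi (0 : ℝ), HasDerivAt Φ (Φ' s) s := by
    intro s hs
    have hs : 0 < s := hs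
    have h1 : HasDerivAt (fun s : ℝ => Real.exp (-l * s ^ 2))
        (Real.exp (-l * s ^ 2) * (-l * (2 * s))) s := by
      have h2 : HasDerivAt (fun s : ℝ => -l * s ^ 2) (-l * (2 * s)) s := by
        simpa using (hasDerivAt_pow 2 s).const_mul (-l)
      exact h2.exp
    have h3 := hasDerivAt_avg_s (kern_Gk tg0) kern_kap (hasFDerivAt_Gk tg0) kap_eq hf hA hs x
    have h4 := h1.mul h3
    refine h4.congr_deriv ?_
    simp only [hΦ', map_smul, htr, smul_eq_mul]
    unfold wt
    rw [Real.rpow_neg_one, Real.rpow_one]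
    ring
  have hi2 : IntegrableOn (fun s => wt l (-1) s • avg k s f x) (Ioi 0) :=
    integrable_sint hk hf hA hl (by linarith : -1 < -1 + a) x bd
  have hi0 : IntegrableOn (fun s => wt l 1 s • avg (Gk q0) s f x) (Ioi 0) :=
    integrable_sint (kern_Gk tg0) hf hA hl (by norm_num : (-1 : ℝ) < 1 + 0) x
      (fun s _ => bd0 hA s x)
  have hi2' : IntegrableOn (fun s => L (wt l (-1) s • avg k s f x)) (Ioi 0) :=
    ContinuousLinearMap.integrable_comp _ hi2
  have hi0' : IntegrableOn (fun s => l * (wt l 1 s • avg (Gk q0) s f x)) (Ioi 0) :=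
    hi0.const_mul l
  have hlim : Tendsto Φ atTop (𝓝 0) := by
    have h1 : Tendsto (fun s : ℝ => Real.exp (-l * s ^ 2) * (A * ∫ z : E, ‖Gk q0 z‖)) atTop
        (𝓝 (0 * (A * ∫ z : E, ‖Gk q0 z‖))) := by
      refine Tendsto.mul_const _ ?_
      refine Real.tendsto_exp_atBot.comp ?_
      have h2 : Tendsto (fun s : ℝ => s ^ 2) atTop atTop := tendsto_pow_atTop (by norm_num)
      exact h2.const_mul_atTop_of_neg (by linarith)
    rw [zero_mul] at h1
    refine squeeze_zero_norm (fun s => ?_) h1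
    rw [hΦ]
    simp only [norm_mul, Real.norm_of_nonneg (Real.exp_pos _).le]
    exact mul_le_mul_of_nonneg_left (norm_avg_le (kern_Gk tg0) hA s x) (Real.exp_pos _).le
  have hFTC := integral_Ioi_of_hasDerivAt_of_tendsto hcont.continuousWithinAt hderiv
    (hi2'.sub hi0') hlim
  have h0 : Φ 0 = f x := by
    simp only [hΦ, avg]
    simp only [zero_smul, sub_zero, smul_eq_mul]
    rw [integral_const_mul, integral_k0]
    simp
  rw [h0, hΦ', integral_sub hi2' hi0', integral_const_mul,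
    ContinuousLinearMap.integral_comp_comm _ hi2] at hFTC
  have e1 : (∫ s in Ioi 0, wt l (-1) s • avg k s f x) = sint (wt l (-1)) k f x := rfl
  have e2 : (∫ s in Ioi 0, wt l 1 s • avg (Gk q0) s f x) = res l f x := rfl
  rw [e1, e2] at hFTC
  linarith

/-- The resolvent equation. -/
theorem res_eq {ι : Type*} [Fintype ι] (b : OrthonormalBasis ι ℝ E) (ha0 : 0 < a) (ha1 : a < 1)
    (hl : 0 < l) (hA : ∀ x, |f x| ≤ A) (hB : HolB a B f) (x : E) :
    l * res l f x - trL b (res2 l f x) = f x :=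
  res_eq_aux (kern_Gk tg2) integral_k2 (trL b) (trL_k2 b) ha0 ha1 hl hA hB x

theorem mul_rpow_le {c C N l p : ℝ} {X : ℝ} (hl : 0 < l) (hX : 0 ≤ X) (hXN : X ≤ N)
    (hcC : c ≤ C) (hC : 0 ≤ C) : c * X * l ^ p ≤ C * N * l ^ p := by
  have h1 : 0 ≤ l ^ p := Real.rpow_nonneg hl.le p
  refine mul_le_mul_of_nonneg_right ?_ h1
  exact (mul_le_mul_of_nonneg_right hcC hX).trans (mul_le_mul_of_nonneg_left hXN hC)

variable (E) in
/-- **Resolvent of the Laplacian in Hölder spaces.** -/
theorem resolvent (ha0 : 0 < a) (ha1 : a < 1) :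
    ∃ C : ℝ, 0 < C ∧ ∀ l : ℝ, 0 < l → ∀ (f : E → ℝ) (A B : ℝ), 0 ≤ B → HB a f A B →
      ContDiff ℝ 2 (res l f) ∧
      (∀ (ι : Type) [Fintype ι] (b : OrthonormalBasis ι ℝ E) (x : E),
        l * res l f x - ∑ i, fderiv ℝ (fderiv ℝ (res l f)) x (b i) (b i) = f x) ∧
      ResBd a l C (l ^ (a / 2) * A + B) (res l f) := by
  set m0 := ∫ z : E, ‖Gk q0 z‖ with hm0
  set m1 := ∫ z : E, ‖Gk q1 z‖ with hm1
  set n1 := ∫ z : E, ‖z‖ ^ a * ‖Gk q1 z‖ with hn1
  set n2 := ∫ z : E, ‖z‖ ^ a * ‖Gk q2 z‖ with hn2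
  set n3 := ∫ z : E, ‖z‖ ^ a * ‖Gk (pstep q2) z‖ with hn3
  have pm0 : 0 ≤ m0 := L1_nonneg _
  have pm1 : 0 ≤ m1 := L1_nonneg _
  have pn1 : 0 ≤ n1 := mom_nonneg _ _
  have pn2 : 0 ≤ n2 := by
    rw [hn2]
    exact integral_nonneg fun z => by positivity
  have pn3 : 0 ≤ n3 := mom_nonneg _ _
  have g1 : 0 < Real.Gamma ((a + 1) / 2) := Real.Gamma_pos_of_pos (by linarith)
  have g2 : 0 < Real.Gamma (a / 2) := Real.Gamma_pos_of_pos (by linarith)
  have g3 : 0 < Real.Gamma (1 / 2) := Real.Gamma_pos_of_pos (by norm_num)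
  have h1a : 0 < 1 - a := by linarith
  set c1 := m0 with hc1
  set c2 := n1 * Real.Gamma ((a + 1) / 2) with hc2
  set c3 := m1 * Real.Gamma (1 / 2) with hc3
  set c4 := n2 * Real.Gamma (a / 2) with hc4
  set c5 := 4 * n2 / a + 2 * n3 / (1 - a) with hc5
  have pc2 : 0 ≤ c2 := by positivity
  have pc3 : 0 ≤ c3 := by positivity
  have pc4 : 0 ≤ c4 := by positivity
  have pc5 : 0 ≤ c5 := by positivity
  refine ⟨c1 + c2 + c3 + c4 + c5 + 1, by positivity, ?_⟩
  set C := c1 + c2 + c3 + c4 + c5 + 1 with hC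
  have hC0 : 0 ≤ C := by positivity
  intro l hl f A B hB0 hfAB
  have hA : ∀ x, |f x| ≤ A := hfAB.sup
  have hB : HolB a B f := hfAB.hol
  have hf : Continuous f := hB.continuous ha0
  have hA0 : 0 ≤ A := (abs_nonneg _).trans (hA 0)
  have d0 := hasFDerivAt_res ha0 ha1 hl hA hB
  have d1 := hasFDerivAt_res1 ha0 ha1 hl hA hB
  have e1 : fderiv ℝ (res l f) = res1 l f := funext fun x => (d0 x).fderiv
  have e2 : fderiv ℝ (res1 l f) = res2 l f := funext fun x => (d1 x).fderiv
  set N := l ^ (a / 2) * A + B with hN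
  have hla : 0 < l ^ (a / 2) := Real.rpow_pos_of_pos hl _
  have hN0 : 0 ≤ N := by positivity
  have hBN : B ≤ N := by
    have : 0 ≤ l ^ (a / 2) * A := by positivity
    linarith
  have hAN : l ^ (a / 2) * A ≤ N := by linarith
  -- the second derivative
  have two_hol : ∀ x y, ‖res2 l f x - res2 l f y‖ ≤ C * N * ‖x - y‖ ^ a := by
    intro x y
    have h := norm_sint_sub_le_sing (kern_Gk tg2) (kern_Gk (tg_pstep tg2)) (hasFDerivAt_Gk tg2)
      integral_k2 ha0 ha1 hf hA hB hl x y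
    refine h.trans ?_
    rw [← mul_assoc]
    refine mul_le_mul_of_nonneg_right ?_ (Real.rpow_nonneg (norm_nonneg _) _)
    have : c5 * B ≤ C * N :=
      (mul_le_mul_of_nonneg_right (by linarith : c5 ≤ C) hB0).trans
        (mul_le_mul_of_nonneg_left hBN hC0)
    exact this
  have cont2 : Continuous (res2 l f) := by
    have h : HolB a (C * N) (res2 l f) := fun x y => two_hol x y
    exact h.continuous ha0
  refine ⟨?_, ?_, ?_⟩
  · have h2 : ContDiff ℝ 1 (res1 l f) := by
      rw [contDiff_one_iff_fderiv]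
      exact ⟨fun x => (d1 x).differentiableAt, by rw [e2]; exact cont2⟩
    rw [show (2 : WithTop ℕ∞) = 1 + 1 by norm_num, contDiff_succ_iff_fderiv]
    refine ⟨fun x => (d0 x).differentiableAt, fun h => by simp at h, ?_⟩
    rw [e1]; exact h2
  · intro ι _ b x
    rw [e1, e2, ← trL_apply]
    exact res_eq b ha0 ha1 hl hA hB x
  · constructor
    · constructor
      · intro x
        have h := norm_sint_le (β := 1) (γ := 0) hl (by norm_num) x (fun s _ => bd0 hA s x)
        refine h.trans ?_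
        have e3 : -((1 + 0 + 1) / 2 : ℝ) = a / 2 + -(1 + a / 2) := by ring
        have e4 : Real.Gamma ((1 + 0 + 1) / 2) = 1 := by
          rw [show ((1 + 0 + 1) / 2 : ℝ) = 1 by norm_num, Real.Gamma_one]
        rw [e4, e3, Real.rpow_add hl, mul_one]
        have := mul_rpow_le (c := c1) (C := C) (p := -(1 + a / 2)) hl
          (by positivity : 0 ≤ l ^ (a / 2) * A) hAN (by linarith) hC0
        refine le_trans (le_of_eq ?_) this
        ring
      · intro x y
        have h := norm_sint_sub_le (β := 1) (kern_Gk tg0) hf hA hB hl (by norm_num) x y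
        refine h.trans ?_
        have e3 : -((1 + 1) / 2 : ℝ) = -1 := by ring
        have e4 : Real.Gamma ((1 + 1) / 2) = 1 := by
          rw [show ((1 + 1) / 2 : ℝ) = 1 by norm_num, Real.Gamma_one]
        rw [e3, e4, mul_one, ← mul_assoc]
        refine mul_le_mul_of_nonneg_right ?_ (Real.rpow_nonneg (norm_nonneg _) _)
        have := mul_rpow_le (c := c1) (C := C) (p := -1) hl hB0 hBN (by linarith) hC0
        refine le_trans (le_of_eq ?_) this
        ring
    · rw [e1]
      constructor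
      · intro x
        have h := norm_sint_le (β := 0) (γ := a) hl (by linarith) x
          (fun s hs => bd1 ha0 ha1 hA hB hs x)
        refine h.trans ?_
        have e3 : -((0 + a + 1) / 2 : ℝ) = -((1 + a) / 2) := by ring
        have e4 : ((0 + a + 1) / 2 : ℝ) = (a + 1) / 2 := by ring
        rw [e3, e4]
        have := mul_rpow_le (c := c2) (C := C) (p := -((1 + a) / 2)) hl hB0 hBN (by linarith) hC0
        refine le_trans (le_of_eq ?_) this
        rw [hc2]; ring
      · intro x y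
        have h := norm_sint_sub_le (β := 0) (kern_Gk tg1) hf hA hB hl (by norm_num) x y
        refine h.trans ?_
        rw [zero_add, ← mul_assoc]
        refine mul_le_mul_of_nonneg_right ?_ (Real.rpow_nonneg (norm_nonneg _) _)
        have := mul_rpow_le (c := c3) (C := C) (p := -(1 / 2)) hl hB0 hBN (by linarith) hC0
        refine le_trans (le_of_eq ?_) this
        rw [hc3]; ring
    · rw [e1, e2]
      constructor
      · intro x
        have h := norm_sint_le (β := -1) (γ := a) hl (by linarith) x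
          (fun s hs => bd2 ha0 ha1 hA hB hs x)
        refine h.trans ?_
        have e3 : ((-1 + a + 1) / 2 : ℝ) = a / 2 := by ring
        rw [e3]
        have := mul_rpow_le (c := c4) (C := C) (p := -(a / 2)) hl hB0 hBN (by linarith) hC0
        refine le_trans (le_of_eq ?_) this
        rw [hc4]; ring
      · exact two_hol

end Vale.Agent.P272.K.H
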