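import Vale.Agent.P272.K.H.Kern

open MeasureTheory Real Set Filter Topology
open scoped RealInnerProductSpace ContDiff

noncomputable section

set_option linter.unusedSectionVars false
set_option linter.unusedSimpArgs false

namespace Vale.Agent.P272.K.H

variable {E : Type*} [NormedAddCommGroup E] [InnerProductSpace ℝ E] [FiniteDimensional ℝ E]
  [MeasurableSpace E] [BorelSpace E]
variable {F : Type*} [NormedAddCommGroup F] [NormedSpace ℝ F]

theorem aesm {g : E → F} (hg : Continuous g) : AEStronglyMeasurable g (volume : Measure E) :=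
  hg.aestronglyMeasurable

/-- The average of `f` at scale `s` against the kernel `k`. -/
def avg (k : E → F) (s : ℝ) (f : E → ℝ) (x : E) : F := ∫ z, f (x - s • z) • k z

/-- Hoelder bound of exponent `a` and constant `K`. -/
def HolB {X Y : Type*} [NormedAddCommGroup X] [NormedAddCommGroup Y] (a K : ℝ) (f : X → Y) :
    Prop := ∀ x y, ‖f x - f y‖ ≤ K * ‖x - y‖ ^ a

theorem HolB.continuous {X Y : Type*} [NormedAddCommGroup X] [NormedAddCommGroup Y] {a K : ℝ}
    (ha : 0 < a) {f : X → Y} (h : HolB a K f) : Continuous f := by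
  rw [continuous_iff_continuousAt]
  intro x
  rw [ContinuousAt, tendsto_iff_norm_sub_tendsto_zero]
  have h1 : Tendsto (fun y => K * ‖y - x‖ ^ a) (𝓝 x) (𝓝 (K * ‖x - x‖ ^ a)) := by
    refine Continuous.tendsto (f := fun y => K * ‖y - x‖ ^ a) ?_ x
    exact continuous_const.mul
      ((continuous_id.sub continuous_const).norm.rpow_const (fun _ => Or.inr ha.le))
  rw [sub_self, norm_zero, Real.zero_rpow ha.ne', mul_zero] at h1
  exact squeeze_zero (fun y => norm_nonneg _) (fun y => h y x) h1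

section basic

variable {k : E → F} {f : E → ℝ} {M K a : ℝ}

theorem integrable_avg (hk : Kern k) (hf : Continuous f) (hM : ∀ x, |f x| ≤ M) (s : ℝ) (x : E) :
    Integrable (fun z => f (x - s • z) • k z) := by
  refine (hk.integrable.norm.const_mul M).mono' ?_ ?_
  · have : Continuous (fun z => f (x - s • z) • k z) := by
      have := hk.cont
      fun_prop
    exact this.aestronglyMeasurable
  · refine Filter.Eventually.of_forall fun z => ?_
    rw [norm_smul, Real.norm_eq_abs]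
    exact mul_le_mul_of_nonneg_right (hM _) (norm_nonneg _)

theorem norm_avg_le (hk : Kern k) (hM : ∀ x, |f x| ≤ M) (s : ℝ) (x : E) :
    ‖avg k s f x‖ ≤ M * ∫ z, ‖k z‖ := by
  unfold avg
  rw [← integral_const_mul]
  refine norm_integral_le_of_norm_le (hk.integrable.norm.const_mul M) ?_
  refine Filter.Eventually.of_forall fun z => ?_
  rw [norm_smul, Real.norm_eq_abs]
  exact mul_le_mul_of_nonneg_right (hM _) (norm_nonneg _)

theorem norm_avg_sub_le [CompleteSpace F] (hk : Kern k) (hf : Continuous f)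
    (hM : ∀ x, |f x| ≤ M) (ha : 0 ≤ a) (ha1 : a ≤ 1)
    (hK : HolB a K f) (s : ℝ) (x : E) :
    ‖avg k s f x - f x • ∫ z, k z‖ ≤ K * |s| ^ a * ∫ z, ‖z‖ ^ a * ‖k z‖ := by
  have h0 : Integrable (fun z => f x • k z) := hk.integrable.smul (f x)
  unfold avg
  rw [← integral_smul, ← integral_sub (integrable_avg hk hf hM s x) h0,
    ← integral_const_mul]
  refine norm_integral_le_of_norm_le ((hk.integrable_moment ha ha1).const_mul _) ?_
  refine Filter.Eventually.of_forall fun z => ?_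
  rw [← sub_smul, norm_smul]
  have h1 := hK (x - s • z) x
  have h2 : x - s • z - x = -(s • z) := by abel
  rw [h2, norm_neg, norm_smul, Real.norm_eq_abs s,
    Real.mul_rpow (abs_nonneg _) (norm_nonneg _)] at h1
  calc ‖f (x - s • z) - f x‖ * ‖k z‖ ≤ (K * (|s| ^ a * ‖z‖ ^ a)) * ‖k z‖ :=
        mul_le_mul_of_nonneg_right h1 (norm_nonneg _)
    _ = _ := by ring

theorem norm_avg_le_hol [CompleteSpace F] (hk : Kern k) (h0 : ∫ z, k z = 0)
    (hf : Continuous f) (hM : ∀ x, |f x| ≤ M) (ha : 0 ≤ a) (ha1 : a ≤ 1)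
    (hK : HolB a K f) (s : ℝ) (x : E) :
    ‖avg k s f x‖ ≤ K * |s| ^ a * ∫ z, ‖z‖ ^ a * ‖k z‖ := by
  have := norm_avg_sub_le hk hf hM ha ha1 hK s x
  rwa [h0, smul_zero, sub_zero] at this

theorem continuous_avg_s (hk : Kern k) (hf : Continuous f) (hM : ∀ x, |f x| ≤ M) (x : E) :
    Continuous (fun s => avg k s f x) := by
  unfold avg
  refine continuous_of_dominated (bound := fun z => M * ‖k z‖) ?_ ?_
    (hk.integrable.norm.const_mul M) ?_
  · intro s
    exact (integrable_avg hk hf hM s x).aestronglyMeasurable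
  · intro s
    refine Filter.Eventually.of_forall fun z => ?_
    rw [norm_smul, Real.norm_eq_abs]
    exact mul_le_mul_of_nonneg_right (hM _) (norm_nonneg _)
  · refine Filter.Eventually.of_forall fun z => ?_
    fun_prop

theorem avg_eq {s : ℝ} (hs : 0 < s) (x : E) :
    avg k s f x = (s ^ Module.finrank ℝ E)⁻¹ • ∫ y, f y • k (s⁻¹ • (x - y)) := by
  have h1 : ∫ y, f y • k (s⁻¹ • (x - y)) = ∫ w, f (x - w) • k (s⁻¹ • w) := by
    rw [← integral_sub_left_eq_self (fun y => f y • k (s⁻¹ • (x - y))) volume x]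
    simp
  rw [h1]
  have h2 := Measure.integral_comp_smul_of_nonneg (volume : Measure E)
    (fun w => f (x - w) • k (s⁻¹ • w)) s (hR := hs.le)
  rw [← h2]
  unfold avg
  congr 1
  ext z
  rw [smul_smul, inv_mul_cancel₀ hs.ne', one_smul]

/-- Integrability of Gaussian weights with shift and scale. -/
theorem integrable_gw_shift {b s : ℝ} (hb : 0 < b) (hs : 0 < s) (x : E) :
    Integrable (fun y : E => gw b (s⁻¹ • (x - y))) := by
  have h1 : (fun y : E => gw b (s⁻¹ • (x - y))) = fun y : E => gw (b * s⁻¹ ^ 2) (x - y) := by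
    ext y; rw [gw_smul]
  rw [h1]
  have hb' : 0 < b * s⁻¹ ^ 2 := by positivity
  exact (integrable_gw hb').comp_sub_left x

end basic

section deriv

variable [CompleteSpace F] {k : E → F} {k' : E → E →L[ℝ] F} {f : E → ℝ} {M K a : ℝ}

theorem hasFDerivAt_avg (hk : Kern k) (hk' : Kern k') (hd : ∀ z, HasFDerivAt k (k' z) z)
    (hf : Continuous f) (hM : ∀ x, |f x| ≤ M) {s : ℝ} (hs : 0 < s) (x : E) :
    HasFDerivAt (avg k s f) (s⁻¹ • avg k' s f x) x := by
  have hM0 : 0 ≤ M := (abs_nonneg _).trans (hM x)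
  obtain ⟨C, hC, hb⟩ := hk'.bd
  obtain ⟨C0, hC0, hb0⟩ := hk.bd
  have e1 : avg k s f = fun x => (s ^ Module.finrank ℝ E)⁻¹ • ∫ y, f y • k (s⁻¹ • (x - y)) := by
    ext x; exact avg_eq hs x
  rw [e1, avg_eq hs x, smul_comm, ← integral_smul]
  refine HasFDerivAt.const_smul ?_ _
  have hcont := hk.cont
  have hcont' := hk'.cont
  refine hasFDerivAt_integral_of_dominated_of_fderiv_le
    (F := fun x y => f y • k (s⁻¹ • (x - y)))
    (F' := fun x y => s⁻¹ • f y • k' (s⁻¹ • (x - y)))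
    (bound := fun y => (s⁻¹ * M * C * Real.exp (1 / 8 * s⁻¹ ^ 2)) *
      gw (1 / 16) (s⁻¹ • (x - y)))
    (s := Metric.ball x 1) (Metric.ball_mem_nhds _ one_pos) ?_ ?_ ?_ ?_ ?_ ?_
  · refine Filter.Eventually.of_forall fun x => ?_
    refine Continuous.aestronglyMeasurable ?_
    fun_prop
  · refine ((integrable_gw_shift (by norm_num : (0 : ℝ) < 1 / 8) hs x).const_mul
      (M * C0)).mono' ?_ ?_
    · refine Continuous.aestronglyMeasurable ?_
      fun_prop
    · refine Filter.Eventually.of_forall fun y => ?_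
      rw [norm_smul, Real.norm_eq_abs, mul_assoc]
      exact mul_le_mul (hM _) (hb0 _) (norm_nonneg _) hM0
  · refine aesm ?_
    fun_prop
  · refine Filter.Eventually.of_forall fun y => ?_
    intro x' hx'
    rw [norm_smul, norm_smul, Real.norm_eq_abs, Real.norm_eq_abs, abs_of_pos (inv_pos.2 hs)]
    have h1 := gw_shift (by norm_num : (0 : ℝ) ≤ 1 / 8) (s⁻¹ • (x' - y)) (s⁻¹ • (x - y))
    have h2 : s⁻¹ • (x' - y) - s⁻¹ • (x - y) = s⁻¹ • (x' - x) := by
      rw [← smul_sub]; congr 1; abel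
    rw [h2, norm_smul, Real.norm_eq_abs, abs_of_pos (inv_pos.2 hs)] at h1
    have h3 : ‖x' - x‖ ≤ 1 := by
      rw [← dist_eq_norm]; exact (Metric.mem_ball.1 hx').le
    have h4 : (s⁻¹ * ‖x' - x‖) ^ 2 ≤ s⁻¹ ^ 2 := by
      have h5 : 0 ≤ s⁻¹ := (inv_pos.2 hs).le
      have h6 : s⁻¹ * ‖x' - x‖ ≤ s⁻¹ := mul_le_of_le_one_right h5 h3
      exact pow_le_pow_left₀ (by positivity) h6 2
    have h7 : Real.exp (1 / 8 * (s⁻¹ * ‖x' - x‖) ^ 2) ≤ Real.exp (1 / 8 * s⁻¹ ^ 2) :=
      Real.exp_le_exp.2 (mul_le_mul_of_nonneg_left h4 (by norm_num))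
    have h8 : 0 < gw (1 / 8 / 2) (s⁻¹ • (x - y)) := gw_pos _ _
    have h9 : gw (1 / 8) (s⁻¹ • (x' - y)) ≤ Real.exp (1 / 8 * s⁻¹ ^ 2) *
        gw (1 / 16) (s⁻¹ • (x - y)) := by
      refine h1.trans ?_
      have h10 : (1 / 8 / 2 : ℝ) = 1 / 16 := by norm_num
      rw [h10] at h8 ⊢
      exact mul_le_mul_of_nonneg_right h7 h8.le
    calc s⁻¹ * (|f y| * ‖k' (s⁻¹ • (x' - y))‖)
        ≤ s⁻¹ * (M * (C * (Real.exp (1 / 8 * s⁻¹ ^ 2) * gw (1 / 16) (s⁻¹ • (x - y))))) := by
          refine mul_le_mul_of_nonneg_left ?_ (inv_pos.2 hs).le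
          refine mul_le_mul (hM _) ?_ (norm_nonneg _) hM0
          exact (hb _).trans (mul_le_mul_of_nonneg_left h9 hC)
      _ = _ := by ring
  · exact (integrable_gw_shift (by norm_num) hs x).const_mul _
  · refine Filter.Eventually.of_forall fun y => ?_
    intro x' _
    have h1 : HasFDerivAt (fun x : E => s⁻¹ • (x - y)) (s⁻¹ • ContinuousLinearMap.id ℝ E) x' :=
      ((hasFDerivAt_id x').sub_const y).const_smul _
    have h2 := ((hd (s⁻¹ • (x' - y))).comp x' h1).const_smul (f y)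
    refine h2.congr_fderiv ?_
    ext u
    simp [smul_smul, mul_comm]

/-- The derivative of a kernel of the class has integral zero. -/
theorem integral_deriv_eq_zero (hk : Kern k) (hk' : Kern k')
    (hd : ∀ z, HasFDerivAt k (k' z) z) : ∫ z, k' z = 0 := by
  have h1 := hasFDerivAt_avg (f := fun _ => (1 : ℝ)) (M := 1) hk hk' hd continuous_const
    (by simp) one_pos 0
  have h2 : avg k 1 (fun _ => (1 : ℝ)) = fun _ => ∫ z, k z := by
    ext x; simp [avg]
  rw [h2] at h1
  have h3 := h1.unique (hasFDerivAt_const _ _)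
  simpa [avg] using h3

/-- The derivative of an average with respect to the scale. -/
theorem hasDerivAt_avg_s {κ : E → F} (hk : Kern k) (hκ : Kern κ)
    (hd : ∀ z, HasFDerivAt k (k' z) z)
    (hκe : ∀ z, κ z = -((Module.finrank ℝ E : ℝ) • k z) - k' z z)
    (hf : Continuous f) (hM : ∀ x, |f x| ≤ M) {s : ℝ} (hs : 0 < s) (x : E) :
    HasDerivAt (fun s => avg k s f x) (s⁻¹ • avg κ s f x) s := by
  set m := Module.finrank ℝ E with hm
  have hM0 : 0 ≤ M := (abs_nonneg _).trans (hM x)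
  obtain ⟨C, hC, hb⟩ := hκ.bd
  obtain ⟨C0, hC0, hb0⟩ := hk.bd
  have hcont := hk.cont
  have hcont' := hκ.cont
  have key : HasDerivAt (fun s' => ∫ y, f y • (s' ^ m)⁻¹ • k (s'⁻¹ • (x - y)))
      (∫ y, f y • (s ^ m)⁻¹ • s⁻¹ • κ (s⁻¹ • (x - y))) s := by
    refine (hasDerivAt_integral_of_dominated_loc_of_deriv_le
      (F := fun s' y => f y • (s' ^ m)⁻¹ • k (s'⁻¹ • (x - y)))
      (F' := fun s' y => f y • (s' ^ m)⁻¹ • s'⁻¹ • κ (s'⁻¹ • (x - y)))
      (bound := fun y => (M * (((s / 2) ^ m)⁻¹ * ((s / 2)⁻¹ * C))) *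
        gw (1 / 8) ((2 * s)⁻¹ • (x - y)))
      (s := Set.Ioo (s / 2) (2 * s)) (Ioo_mem_nhds (by linarith) (by linarith))
      ?_ ?_ ?_ ?_ ?_ ?_).2
    · refine Filter.Eventually.of_forall fun s' => ?_
      refine aesm ?_
      fun_prop
    · refine ((integrable_gw_shift (by norm_num : (0 : ℝ) < 1 / 8) hs x).const_mul
        (M * ((s ^ m)⁻¹ * C0))).mono' ?_ ?_
      · refine aesm ?_
        fun_prop
      · refine Filter.Eventually.of_forall fun y => ?_
        rw [norm_smul, norm_smul, Real.norm_eq_abs, mul_assoc, mul_assoc, norm_inv, norm_pow,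
          Real.norm_eq_abs, abs_of_pos hs]
        refine mul_le_mul (hM _) ?_ (by positivity) hM0
        exact mul_le_mul_of_nonneg_left (hb0 _) (by positivity)
    · refine aesm ?_
      fun_prop
    · refine Filter.Eventually.of_forall fun y => ?_
      intro s' hs'
      have hs1 : s / 2 < s' := hs'.1
      have hs2 : s' < 2 * s := hs'.2
      have hs0 : 0 < s' := by linarith
      rw [norm_smul, norm_smul, norm_smul, Real.norm_eq_abs, norm_inv, norm_inv, norm_pow,
        Real.norm_eq_abs, abs_of_pos hs0]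
      have h1 : gw (1 / 8) (s'⁻¹ • (x - y)) ≤ gw (1 / 8) ((2 * s)⁻¹ • (x - y)) := by
        rw [gw_smul, gw_smul]
        apply gw_anti
        have h2 : (2 * s)⁻¹ ≤ s'⁻¹ := inv_anti₀ hs0 hs2.le
        have h3 : 0 ≤ (2 * s)⁻¹ := by positivity
        have h4 := pow_le_pow_left₀ h3 h2 2
        linarith
      have h5 : (s' ^ m)⁻¹ ≤ ((s / 2) ^ m)⁻¹ :=
        inv_anti₀ (by positivity) (pow_le_pow_left₀ (by positivity) hs1.le m)
      have h6 : s'⁻¹ ≤ (s / 2)⁻¹ := inv_anti₀ (by positivity) hs1.le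
      have h7 : ‖κ (s'⁻¹ • (x - y))‖ ≤ C * gw (1 / 8) ((2 * s)⁻¹ • (x - y)) :=
        (hb _).trans (mul_le_mul_of_nonneg_left h1 hC)
      calc |f y| * ((s' ^ m)⁻¹ * (s'⁻¹ * ‖κ (s'⁻¹ • (x - y))‖))
          ≤ M * (((s / 2) ^ m)⁻¹ * ((s / 2)⁻¹ * (C * gw (1 / 8) ((2 * s)⁻¹ • (x - y))))) := by
            have : 0 < gw (1 / 8) ((2 * s)⁻¹ • (x - y)) := gw_pos _ _
            have h8 := hM y
            gcongr
        _ = _ := by ring
    · exact (integrable_gw_shift (by norm_num) (by positivity) x).const_mul _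
    · refine Filter.Eventually.of_forall fun y => ?_
      intro s' hs'
      have hs0 : 0 < s' := by
        have := hs'.1
        linarith
      have h1 : HasDerivAt (fun s : ℝ => s⁻¹ • (x - y)) ((-(s' ^ 2)⁻¹) • (x - y)) s' :=
        (hasDerivAt_inv hs0.ne').smul_const _
      have h2 := (hd (s'⁻¹ • (x - y))).comp_hasDerivAt s' h1
      have h3 : HasDerivAt (fun s : ℝ => (s ^ m)⁻¹) (-(m * s' ^ (m - 1)) / (s' ^ m) ^ 2) s' :=
        (hasDerivAt_pow m s').inv (by positivity)
      have h4 := (h3.smul h2).const_smul (f y)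
      refine h4.congr_deriv ?_
      congr 1
      rw [hκe]
      have h5 : (s' ^ m)⁻¹ • (k' (s'⁻¹ • (x - y))) (-(s' ^ 2)⁻¹ • (x - y)) =
          -((s' ^ m)⁻¹ • s'⁻¹ • (k' (s'⁻¹ • (x - y))) (s'⁻¹ • (x - y))) := by
        rw [map_smul, map_smul, smul_smul, smul_smul, smul_smul, ← neg_smul]
        congr 1
        field_simp
      have h6 : (-(m * s' ^ (m - 1)) / (s' ^ m) ^ 2 : ℝ) = -((s' ^ m)⁻¹ * s'⁻¹ * m) := by
        rcases Nat.eq_zero_or_pos m with h0 | h0
        · rw [h0]; simp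
        · obtain ⟨j, hj⟩ : ∃ j, m = j + 1 := ⟨m - 1, by omega⟩
          rw [hj]
          simp only [Nat.add_sub_cancel]
          field_simp
          ring
      simp only [Function.comp_apply]
      rw [h5, h6]
      generalize s'⁻¹ • (x - y) = w
      module
  have h1 : (fun s => avg k s f x) =ᶠ[𝓝 s]
      fun s' => ∫ y, f y • (s' ^ m)⁻¹ • k (s'⁻¹ • (x - y)) := by
    filter_upwards [lt_mem_nhds hs] with s' hs'
    rw [avg_eq hs', ← integral_smul]
    congr 1
    ext y
    rw [smul_comm]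
  have h2 : s⁻¹ • avg κ s f x = ∫ y, f y • (s ^ m)⁻¹ • s⁻¹ • κ (s⁻¹ • (x - y)) := by
    rw [avg_eq hs, ← integral_smul, ← integral_smul]
    congr 1
    ext y
    simp only [smul_smul]
    congr 1
    ring
  rw [h2]
  exact key.congr_of_eventuallyEq h1

end deriv

end Vale.Agent.P272.K.H
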