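import Vale.Agent.P272.K.H.Avg
import Vale.Agent.P272.K.LIN.Jet

open MeasureTheory Real Set Filter Topology
open scoped RealInnerProductSpace ContDiff

noncomputable section

set_option linter.unusedSectionVars false
set_option linter.unusedSimpArgs false

namespace Vale.Agent.P272.K.H

variable {E : Type*} [NormedAddCommGroup E] [InnerProductSpace ℝ E] [FiniteDimensional ℝ E]
  [MeasurableSpace E] [BorelSpace E]
variable {F : Type*} [NormedAddCommGroup F] [NormedSpace ℝ F]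

section kernels

/-- The polynomial parts of the Gaussian and of its derivatives. -/
def q0 (_ : E) : ℝ := 1

def q1 : E → E →L[ℝ] ℝ := pstep q0

def q2 : E → E →L[ℝ] E →L[ℝ] ℝ := pstep q1

theorem tg0 : (q0 : E → ℝ).HasTemperateGrowth := Function.HasTemperateGrowth.const 1

theorem tg1 : (q1 : E → E →L[ℝ] ℝ).HasTemperateGrowth := tg_pstep tg0

theorem tg2 : (q2 : E → E →L[ℝ] E →L[ℝ] ℝ).HasTemperateGrowth := tg_pstep tg1

theorem q1_eq : (q1 : E → E →L[ℝ] ℝ) = fun z => (-(1 / 2 : ℝ)) • innerSL ℝ z := by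
  ext z u
  have : fderiv ℝ (q0 : E → ℝ) z = 0 := (hasFDerivAt_const (1 : ℝ) z).fderiv
  simp [q1, pstep, this, q0]

theorem q2_apply (z u w : E) : q2 z u w = -(1 / 2) * ⟪u, w⟫ + 1 / 4 * ⟪z, u⟫ * ⟪z, w⟫ := by
  have h1 : HasFDerivAt (q1 : E → E →L[ℝ] ℝ) ((-(1 / 2 : ℝ)) • (innerSL ℝ : E →L[ℝ] E →L[ℝ] ℝ)) z := by
    rw [q1_eq]
    exact ((innerSL ℝ : E →L[ℝ] E →L[ℝ] ℝ).hasFDerivAt (x := z)).const_smul (-(1 / 2 : ℝ))
  have h2 : fderiv ℝ (q1 : E → E →L[ℝ] ℝ) z = (-(1 / 2 : ℝ)) • (innerSL ℝ : E →L[ℝ] E →L[ℝ] ℝ) :=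
    h1.fderiv
  have h3 : q2 z u w = (fderiv ℝ (q1 : E → E →L[ℝ] ℝ) z u) w +
    (-(1 / 2 : ℝ)) * (⟪z, u⟫ * (q1 z w)) := by
    simp [q2, pstep]
  have h4 : ((-(1 / 2 : ℝ)) • (innerSL ℝ : E →L[ℝ] E →L[ℝ] ℝ)) u w = -(1 / 2) * ⟪u, w⟫ := rfl
  have h5 : (q1 z : E →L[ℝ] ℝ) w = -(1 / 2) * ⟪z, w⟫ := by rw [q1_eq]; rfl
  rw [h3, h2, h4, h5]
  ring

theorem integral_k0 : ∫ z : E, Gk q0 z = 1 := by
  simpa [Gk, q0] using integral_G (E := E)

theorem integral_k1 : ∫ z : E, Gk q1 z = 0 :=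
  integral_deriv_eq_zero (kern_Gk tg0) (kern_Gk tg1) (hasFDerivAt_Gk tg0)

theorem integral_k2 : ∫ z : E, Gk q2 z = 0 :=
  integral_deriv_eq_zero (kern_Gk tg1) (kern_Gk tg2) (hasFDerivAt_Gk tg1)

/-- The trace of a bilinear form in a basis. -/
def trL {ι : Type*} [Fintype ι] (b : ι → E) : (E →L[ℝ] E →L[ℝ] ℝ) →L[ℝ] ℝ :=
  ∑ i, (ContinuousLinearMap.apply ℝ ℝ (b i)).comp
    (ContinuousLinearMap.apply ℝ (E →L[ℝ] ℝ) (b i))

theorem trL_apply {ι : Type*} [Fintype ι] (b : ι → E) (B : E →L[ℝ] E →L[ℝ] ℝ) :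
    trL b B = ∑ i, B (b i) (b i) := by
  simp [trL]

/-- The kernel of the scale derivative. -/
def kap (z : E) : ℝ := Gk (fun z : E => -(Module.finrank ℝ E : ℝ) + 1 / 2 * ‖z‖ ^ 2) z

theorem tg_kap : (fun z : E => -(Module.finrank ℝ E : ℝ) + 1 / 2 * ‖z‖ ^ 2).HasTemperateGrowth := by
  refine (Function.HasTemperateGrowth.const _).add ?_
  exact (Function.HasTemperateGrowth.const (1 / 2 : ℝ)).mul
    (Function.hasTemperateGrowth_norm_sq E)

theorem kern_kap : Kern (kap : E → ℝ) := kern_Gk tg_kap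

theorem kap_eq (z : E) : kap z = -((Module.finrank ℝ E : ℝ) • Gk q0 z) - Gk q1 z z := by
  have h : Gk q1 z z = G z * (-(1 / 2) * ‖z‖ ^ 2) := by
    rw [Gk, q1_eq]
    simp
  rw [h, kap, Gk, Gk, q0]
  simp only [smul_eq_mul]
  ring

theorem trL_k2 {ι : Type*} [Fintype ι] (b : OrthonormalBasis ι ℝ E) (z : E) :
    trL b (Gk q2 z) = 1 / 2 * kap z := by
  rw [trL_apply]
  have h1 : ∀ i, Gk q2 z (b i) (b i) = G z * (-(1 / 2) + 1 / 4 * ⟪b i, z⟫ ^ 2) := by
    intro i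
    rw [Gk]
    have h : (G z • q2 z) (b i) (b i) = G z * q2 z (b i) (b i) := rfl
    rw [h, q2_apply, real_inner_comm (b i) z]
    have : ⟪b i, b i⟫ = 1 := by
      rw [real_inner_self_eq_norm_sq, b.norm_eq_one]; norm_num
    rw [this]; ring
  simp_rw [h1]
  rw [← Finset.mul_sum, Finset.sum_add_distrib, ← Finset.mul_sum, b.sum_sq_inner_right z]
  rw [kap, Gk]
  simp only [Finset.sum_const, Finset.card_univ, smul_eq_mul, nsmul_eq_mul]
  rw [Module.finrank_eq_card_basis b.toBasis]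
  ring

end kernels

section sint

variable {k : E → F} {f : E → ℝ} {M B a : ℝ}

theorem norm_avg_sub_avg_le (hk : Kern k) (hf : Continuous f) (hM : ∀ x, |f x| ≤ M)
    (hB : ∀ x y, ‖f x - f y‖ ≤ B * ‖x - y‖ ^ a) (s : ℝ) (x y : E) :
    ‖avg k s f x - avg k s f y‖ ≤ (B * ‖x - y‖ ^ a) * ∫ z, ‖k z‖ := by
  unfold avg
  rw [← integral_sub (integrable_avg hk hf hM s x) (integrable_avg hk hf hM s y),
    ← integral_const_mul]
  refine norm_integral_le_of_norm_le (hk.integrable.norm.const_mul _) ?_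
  refine Filter.Eventually.of_forall fun z => ?_
  rw [← sub_smul, norm_smul]
  refine mul_le_mul_of_nonneg_right ?_ (norm_nonneg _)
  refine (hB _ _).trans ?_
  rw [sub_sub_sub_cancel_right]

/-- The weight of the scale integrals. -/
def wt (l β : ℝ) (s : ℝ) : ℝ := 2 * (s ^ β * Real.exp (-l * s ^ 2))

theorem wt_nonneg {l β s : ℝ} (hs : 0 < s) : 0 ≤ wt l β s := by
  unfold wt; positivity

theorem wt_mul {l β γ s : ℝ} (hs : 0 < s) : wt l β s * s ^ γ = wt l (β + γ) s := by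
  unfold wt
  rw [Real.rpow_add hs]; ring

theorem wt_mul_inv {l β s : ℝ} (hs : 0 < s) : wt l β s * s⁻¹ = wt l (β - 1) s := by
  rw [← Real.rpow_neg_one, wt_mul hs]; rfl

theorem continuousOn_wt (l β : ℝ) : ContinuousOn (wt l β) (Ioi 0) := by
  unfold wt
  refine continuousOn_const.mul (ContinuousOn.mul ?_ (by fun_prop))
  exact fun s hs => (Real.continuousAt_rpow_const s β (Or.inl (ne_of_gt hs))).continuousWithinAt

theorem integrableOn_wt {l β : ℝ} (hl : 0 < l) (hβ : -1 < β) : IntegrableOn (wt l β) (Ioi 0) :=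
  (integrableOn_rpow_mul_exp_neg_mul_sq hl hβ).const_mul 2

theorem integral_wt {l β : ℝ} (hl : 0 < l) (hβ : -1 < β) :
    ∫ s in Ioi 0, wt l β s = l ^ (-((β + 1) / 2)) * Real.Gamma ((β + 1) / 2) := by
  unfold wt
  rw [integral_const_mul]
  have h := integral_rpow_mul_exp_neg_mul_rpow (p := 2) (q := β) (b := l) two_pos hβ hl
  simp only [Real.rpow_two] at h
  rw [h, neg_div]
  ring

/-- The scale integral. -/
def sint (w : ℝ → ℝ) (k : E → F) (f : E → ℝ) (x : E) : F := ∫ s in Ioi 0, w s • avg k s f x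

theorem aesm_sint (hk : Kern k) (hf : Continuous f) (hM : ∀ x, |f x| ≤ M) (l β : ℝ) (x : E) :
    AEStronglyMeasurable (fun s => wt l β s • avg k s f x) (volume.restrict (Ioi 0)) :=
  ((continuousOn_wt l β).smul (continuous_avg_s hk hf hM x).continuousOn).aestronglyMeasurable
    measurableSet_Ioi

theorem norm_wt_smul_le {l β γ D : ℝ} {u : F} {s : ℝ} (hs : 0 < s) (hu : ‖u‖ ≤ D * s ^ γ) :
    ‖wt l β s • u‖ ≤ D * wt l (β + γ) s := by
  rw [norm_smul, Real.norm_of_nonneg (wt_nonneg hs), ← wt_mul hs]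
  calc wt l β s * ‖u‖ ≤ wt l β s * (D * s ^ γ) :=
        mul_le_mul_of_nonneg_left hu (wt_nonneg hs)
    _ = _ := by ring

theorem integrable_sint (hk : Kern k) (hf : Continuous f) (hM : ∀ x, |f x| ≤ M) {l β γ D : ℝ}
    (hl : 0 < l) (hβ : -1 < β + γ) (x : E) (hD : ∀ s, 0 < s → ‖avg k s f x‖ ≤ D * s ^ γ) :
    IntegrableOn (fun s => wt l β s • avg k s f x) (Ioi 0) := by
  refine ((integrableOn_wt hl hβ).const_mul D).mono' (aesm_sint hk hf hM l β x) ?_
  filter_upwards [ae_restrict_mem measurableSet_Ioi] with s hs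
  exact norm_wt_smul_le hs (hD s hs)

theorem norm_sint_le {l β γ D : ℝ} (hl : 0 < l) (hβ : -1 < β + γ) (x : E)
    (hD : ∀ s, 0 < s → ‖avg k s f x‖ ≤ D * s ^ γ) :
    ‖sint (wt l β) k f x‖ ≤
      D * (l ^ (-((β + γ + 1) / 2)) * Real.Gamma ((β + γ + 1) / 2)) := by
  rw [← integral_wt hl hβ, ← integral_const_mul]
  refine norm_integral_le_of_norm_le ((integrableOn_wt hl hβ).const_mul D) ?_
  filter_upwards [ae_restrict_mem measurableSet_Ioi] with s hs
  exact norm_wt_smul_le hs (hD s hs)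

/-- Hoelder bounds of scale integrals with integrable weight. -/
theorem norm_sint_sub_le (hk : Kern k) (hf : Continuous f) (hM : ∀ x, |f x| ≤ M)
    (hB : ∀ x y, ‖f x - f y‖ ≤ B * ‖x - y‖ ^ a) {l β : ℝ} (hl : 0 < l) (hβ : -1 < β) (x y : E) :
    ‖sint (wt l β) k f x - sint (wt l β) k f y‖ ≤
      ((∫ z, ‖k z‖) * (l ^ (-((β + 1) / 2)) * Real.Gamma ((β + 1) / 2))) *
        (B * ‖x - y‖ ^ a) := by
  have hi : ∀ x, IntegrableOn (fun s => wt l β s • avg k s f x) (Ioi 0) := fun x =>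
    integrable_sint (γ := 0) (D := M * ∫ z, ‖k z‖) hk hf hM hl (by simpa using hβ) x
      (fun s _ => by simpa using norm_avg_le hk hM s x)
  unfold sint
  rw [← integral_sub (hi x) (hi y), ← integral_wt hl hβ, mul_comm (∫ z, ‖k z‖), mul_assoc,
    ← integral_mul_const]
  refine norm_integral_le_of_norm_le ((integrableOn_wt hl hβ).mul_const _) ?_
  filter_upwards [ae_restrict_mem measurableSet_Ioi] with s hs
  rw [← smul_sub, norm_smul, Real.norm_of_nonneg (wt_nonneg hs)]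
  refine mul_le_mul_of_nonneg_left ?_ (wt_nonneg hs)
  rw [mul_comm]
  exact norm_avg_sub_avg_le hk hf hM hB s x y

/-- Differentiation of scale integrals. -/
theorem hasFDerivAt_sint [CompleteSpace F] {k' : E → E →L[ℝ] F} (hk : Kern k) (hk' : Kern k')
    (hd : ∀ z, HasFDerivAt k (k' z) z) (hf : Continuous f) (hM : ∀ x, |f x| ≤ M)
    {l β γ γ' D D' : ℝ} (hl : 0 < l) (hβ : -1 < β + γ) (hβ' : -1 < β - 1 + γ')
    (hD : ∀ s, 0 < s → ∀ x, ‖avg k s f x‖ ≤ D * s ^ γ)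
    (hD' : ∀ s, 0 < s → ∀ x, ‖avg k' s f x‖ ≤ D' * s ^ γ') (x : E) :
    HasFDerivAt (sint (wt l β) k f) (sint (wt l (β - 1)) k' f x) x := by
  refine hasFDerivAt_integral_of_dominated_of_fderiv_le
    (F := fun x s => wt l β s • avg k s f x)
    (F' := fun x s => wt l (β - 1) s • avg k' s f x)
    (bound := fun s => D' * wt l (β - 1 + γ') s)
    (s := Metric.ball x 1) (Metric.ball_mem_nhds _ one_pos) ?_ ?_ ?_ ?_ ?_ ?_
  · exact Filter.Eventually.of_forall fun x => aesm_sint hk hf hM l β x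
  · exact integrable_sint hk hf hM hl hβ x (fun s hs => hD s hs x)
  · exact aesm_sint hk' hf hM l (β - 1) x
  · filter_upwards [ae_restrict_mem measurableSet_Ioi] with s hs
    intro x' _
    exact norm_wt_smul_le hs (hD' s hs x')
  · exact (integrableOn_wt hl hβ').const_mul D'
  · filter_upwards [ae_restrict_mem measurableSet_Ioi] with s hs
    intro x' _
    have h := (hasFDerivAt_avg hk hk' hd hf hM hs x').const_smul (wt l β s)
    rwa [smul_smul, wt_mul_inv hs] at h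

theorem wt_neg_one_le {l s : ℝ} (hl : 0 < l) (hs : 0 < s) : wt l (-1) s ≤ 2 * s ^ (-1 : ℝ) := by
  unfold wt
  have h1 : Real.exp (-l * s ^ 2) ≤ 1 := by
    rw [Real.exp_le_one_iff]
    nlinarith [sq_nonneg s]
  have h2 : 0 < s ^ (-1 : ℝ) := Real.rpow_pos_of_pos hs _
  nlinarith

theorem norm_avg_sub_avg_le' [CompleteSpace F] {k' : E → E →L[ℝ] F} (hk : Kern k)
    (hk' : Kern k') (hd : ∀ z, HasFDerivAt k (k' z) z) (ha0 : 0 ≤ a) (ha1 : a ≤ 1)
    (hf : Continuous f) (hM : ∀ x, |f x| ≤ M) (hB : HolB a B f) {s : ℝ} (hs : 0 < s) (x y : E) :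
    ‖avg k s f x - avg k s f y‖ ≤
      (B * ∫ z, ‖z‖ ^ a * ‖k' z‖) * s ^ (a - 1) * ‖x - y‖ := by
  have h0 := integral_deriv_eq_zero hk hk' hd
  refine Convex.norm_image_sub_le_of_norm_hasFDerivWithin_le (𝕜 := ℝ) (s := univ)
    (f := avg k s f) (f' := fun x => s⁻¹ • avg k' s f x)
    (fun x _ => (hasFDerivAt_avg hk hk' hd hf hM hs x).hasFDerivWithinAt) ?_ convex_univ
    (mem_univ _) (mem_univ _)
  intro x _
  have h1 := norm_avg_le_hol hk' h0 hf hM ha0 ha1 hB s x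
  rw [norm_smul, norm_inv, Real.norm_of_nonneg hs.le]
  rw [abs_of_pos hs] at h1
  calc s⁻¹ * ‖avg k' s f x‖ ≤ s⁻¹ * (B * s ^ a * ∫ z, ‖z‖ ^ a * ‖k' z‖) :=
        mul_le_mul_of_nonneg_left h1 (inv_pos.2 hs).le
    _ = _ := by
        rw [Real.rpow_sub hs, Real.rpow_one]
        field_simp

/-- Hoelder bound of the scale integral with the singular weight. -/
theorem norm_sint_sub_le_sing [CompleteSpace F] {k' : E → E →L[ℝ] F} (hk : Kern k)
    (hk' : Kern k') (hd : ∀ z, HasFDerivAt k (k' z) z) (h0 : ∫ z, k z = 0) (ha0 : 0 < a)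
    (ha1 : a < 1) (hf : Continuous f) (hM : ∀ x, |f x| ≤ M) (hB : HolB a B f)
    {l : ℝ} (hl : 0 < l) (x y : E) :
    ‖sint (wt l (-1)) k f x - sint (wt l (-1)) k f y‖ ≤
      (4 * (∫ z, ‖z‖ ^ a * ‖k z‖) / a + 2 * (∫ z, ‖z‖ ^ a * ‖k' z‖) / (1 - a)) *
        (B * ‖x - y‖ ^ a) := by
  rcases eq_or_ne x y with rfl | hxy
  · simp [Real.zero_rpow ha0.ne']
  set h := ‖x - y‖ with hh
  have hpos : 0 < h := norm_pos_iff.2 (sub_ne_zero.2 hxy)
  set m := ∫ z, ‖z‖ ^ a * ‖k z‖ with hm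
  set m' := ∫ z, ‖z‖ ^ a * ‖k' z‖ with hm'
  have hbd : ∀ s, 0 < s → ∀ x, ‖avg k s f x‖ ≤ (B * m) * s ^ a := by
    intro s hs x
    have := norm_avg_le_hol hk h0 hf hM ha0.le ha1.le hB s x
    rw [abs_of_pos hs] at this
    linarith
  have hi : ∀ x, IntegrableOn (fun s => wt l (-1) s • avg k s f x) (Ioi 0) := fun x =>
    integrable_sint hk hf hM hl (by linarith : -1 < -1 + a) x (fun s hs => hbd s hs x)
  unfold sint
  rw [← integral_sub (hi x) (hi y)]
  have hint : IntegrableOn (fun s => wt l (-1) s • avg k s f x - wt l (-1) s • avg k s f y)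
      (Ioi 0) := (hi x).sub (hi y)
  have hsplit : Ioi (0 : ℝ) = Ioc 0 h ∪ Ioi h := (Ioc_union_Ioi_eq_Ioi hpos.le).symm
  rw [hsplit, setIntegral_union (Ioc_disjoint_Ioi le_rfl) measurableSet_Ioi
    (hint.mono_set (fun s hs => hs.1)) (hint.mono_set (fun s hs => hpos.trans hs))]
  have hw : ∀ s, 0 < s → ∀ u : F, ∀ c : ℝ, ‖u‖ ≤ c → ‖wt l (-1) s • u‖ ≤ 2 * s ^ (-1 : ℝ) * c := by
    intro s hs u c hu
    rw [norm_smul, Real.norm_of_nonneg (wt_nonneg hs)]
    exact mul_le_mul (wt_neg_one_le hl hs) hu (norm_nonneg _)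
      (by have := Real.rpow_pos_of_pos hs (-1); linarith)
  have hnear : ‖∫ s in Ioc 0 h, (wt l (-1) s • avg k s f x - wt l (-1) s • avg k s f y)‖ ≤
      4 * m / a * (B * h ^ a) := by
    have e1 : ∫ s in Ioc 0 h, (4 * B * m) * s ^ (a - 1) = 4 * m / a * (B * h ^ a) := by
      rw [integral_const_mul, ← intervalIntegral.integral_of_le hpos.le,
        integral_rpow (Or.inl (by linarith)), sub_add_cancel, Real.zero_rpow ha0.ne']
      field_simp
      ring
    rw [← e1]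
    refine norm_integral_le_of_norm_le ?_ ?_
    · have := (intervalIntegral.intervalIntegrable_rpow' (a := 0) (b := h)
        (by linarith : -1 < a - 1)).const_mul (4 * B * m)
      rwa [intervalIntegrable_iff_integrableOn_Ioc_of_le hpos.le] at this
    · filter_upwards [ae_restrict_mem measurableSet_Ioc] with s hs
      have h1 : ‖avg k s f x - avg k s f y‖ ≤ 2 * ((B * m) * s ^ a) := by
        refine (norm_sub_le _ _).trans ?_
        have h2 := hbd s hs.1 x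
        have h3 := hbd s hs.1 y
        linarith
      rw [← smul_sub]
      refine (hw s hs.1 _ _ h1).trans (le_of_eq ?_)
      have : s ^ (a - 1) = s ^ (-1 : ℝ) * s ^ a := by
        rw [← Real.rpow_add hs.1]; congr 1; ring
      rw [this]; ring
  have hfar : ‖∫ s in Ioi h, (wt l (-1) s • avg k s f x - wt l (-1) s • avg k s f y)‖ ≤
      2 * m' / (1 - a) * (B * h ^ a) := by
    have e1 : ∫ s in Ioi h, (2 * (B * m') * h) * s ^ (a - 2) = 2 * m' / (1 - a) * (B * h ^ a) := by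
      rw [integral_const_mul, integral_Ioi_rpow_of_lt (by linarith) hpos]
      have h2 : h ^ (a - 2 + 1) = h ^ a / h := by
        rw [show a - 2 + 1 = a - 1 by ring, Real.rpow_sub hpos, Real.rpow_one]
      rw [h2]
      have h3 : 1 - a ≠ 0 := by linarith
      have h4 : a - 2 + 1 ≠ 0 := by linarith
      have h5 : a - 2 + 1 = -(1 - a) := by ring
      rw [h5, neg_div_neg_eq]
      field_simp
    rw [← e1]
    refine norm_integral_le_of_norm_le ?_ ?_
    · exact (integrableOn_Ioi_rpow_of_lt (by linarith) hpos).const_mul _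
    · filter_upwards [ae_restrict_mem measurableSet_Ioi] with s hs
      have hs0 : 0 < s := hpos.trans hs
      have h1 := norm_avg_sub_avg_le' hk hk' hd ha0.le ha1.le hf hM hB hs0 x y
      rw [← smul_sub]
      refine (hw s hs0 _ _ h1).trans (le_of_eq ?_)
      have : s ^ (a - 2) = s ^ (-1 : ℝ) * s ^ (a - 1) := by
        rw [← Real.rpow_add hs0]; congr 1; ring
      rw [this]; ring
  calc _ ≤ 4 * m / a * (B * h ^ a) + 2 * m' / (1 - a) * (B * h ^ a) :=
        (norm_add_le _ _).trans (add_le_add hnear hfar)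
    _ = _ := by ring

end sint

end Vale.Agent.P272.K.H
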