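import Mathlib

open MeasureTheory Real Set Filter Topology
open scoped RealInnerProductSpace ContDiff

noncomputable section

set_option linter.unusedSectionVars false
set_option linter.unusedSimpArgs false

namespace Vale.Agent.P272.K.H

variable {E : Type*} [NormedAddCommGroup E] [InnerProductSpace ℝ E]
variable {F : Type*} [NormedAddCommGroup F] [NormedSpace ℝ F]

/-- The weight `exp (-b ‖z‖ ^ 2)`. -/
def gw (b : ℝ) (z : E) : ℝ := Real.exp (-b * ‖z‖ ^ 2)

theorem gw_pos (b : ℝ) (z : E) : 0 < gw b z := Real.exp_pos _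

theorem continuous_gw (b : ℝ) : Continuous (gw b : E → ℝ) := by
  unfold gw; fun_prop

theorem gw_smul (b s : ℝ) (z : E) : gw b (s • z) = gw (b * s ^ 2) z := by
  unfold gw
  rw [norm_smul, mul_pow, Real.norm_eq_abs, sq_abs]
  congr 1; ring

theorem gw_anti {a b : ℝ} (h : a ≤ b) (z : E) : gw b z ≤ gw a z := by
  unfold gw
  apply Real.exp_le_exp.2
  nlinarith [sq_nonneg ‖z‖]

/-- Comparison of the weights at two points. -/
theorem gw_shift {b : ℝ} (hb : 0 ≤ b) (z w : E) :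
    gw b z ≤ Real.exp (b * ‖z - w‖ ^ 2) * gw (b / 2) w := by
  unfold gw
  rw [← Real.exp_add]
  apply Real.exp_le_exp.2
  have h1 : ‖w‖ ≤ ‖z‖ + ‖z - w‖ := by
    have := norm_sub_norm_le w z
    rw [norm_sub_rev] at this; linarith
  have h2 : ‖w‖ ^ 2 ≤ 2 * ‖z‖ ^ 2 + 2 * ‖z - w‖ ^ 2 := by
    have := norm_nonneg w
    nlinarith [sq_nonneg (‖z‖ - ‖z - w‖)]
  nlinarith

/-- Polynomial growth is absorbed by a Gaussian. -/
theorem pow_mul_gw_le (N : ℕ) {a b : ℝ} (hab : b < a) :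
    ∃ C : ℝ, 0 ≤ C ∧ ∀ z : E, (1 + ‖z‖) ^ N * gw a z ≤ C * gw b z := by
  set d := a - b with hd
  have hdp : 0 < d := by linarith
  refine ⟨N.factorial * Real.exp (1 + 1 / (4 * d)), by positivity, fun z => ?_⟩
  have h1 : (1 + ‖z‖) ^ N ≤ N.factorial * Real.exp (1 + ‖z‖) := by
    have := Real.pow_div_factorial_le_exp (1 + ‖z‖) (by positivity) N
    rw [div_le_iff₀ (by positivity)] at this
    linarith
  have h2 : Real.exp (1 + ‖z‖) * gw a z ≤ Real.exp (1 + 1 / (4 * d)) * gw b z := by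
    unfold gw
    rw [← Real.exp_add, ← Real.exp_add]
    apply Real.exp_le_exp.2
    have h3 : ‖z‖ ≤ d * ‖z‖ ^ 2 + 1 / (4 * d) := by
      have h4 : 0 ≤ (2 * d * ‖z‖ - 1) ^ 2 / (4 * d) := by positivity
      have h5 : (2 * d * ‖z‖ - 1) ^ 2 / (4 * d) = d * ‖z‖ ^ 2 - ‖z‖ + 1 / (4 * d) := by
        field_simp; ring
      linarith
    have h6 : a = d + b := by rw [hd]; ring
    rw [h6]
    nlinarith
  calc (1 + ‖z‖) ^ N * gw a z ≤ (N.factorial * Real.exp (1 + ‖z‖)) * gw a z :=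
        mul_le_mul_of_nonneg_right h1 (gw_pos _ _).le
    _ = N.factorial * (Real.exp (1 + ‖z‖) * gw a z) := by ring
    _ ≤ N.factorial * (Real.exp (1 + 1 / (4 * d)) * gw b z) := by gcongr
    _ = _ := by ring

theorem tg_fderiv {p : E → F} (hp : p.HasTemperateGrowth) :
    (fderiv ℝ p).HasTemperateGrowth := by
  refine ⟨hp.1.fderiv_right (by simp), fun n => ?_⟩
  obtain ⟨k, C, h⟩ := hp.2 (n + 1)
  exact ⟨k, C, fun x => by rw [norm_iteratedFDeriv_fderiv]; exact h x⟩

variable [FiniteDimensional ℝ E] [MeasurableSpace E] [BorelSpace E]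

theorem integrable_gw {b : ℝ} (hb : 0 < b) : Integrable (gw b : E → ℝ) := by
  have h := GaussianFourier.integrable_cexp_neg_mul_sq_norm_add (V := E) (b := (b : ℂ))
    (by simpa using hb) 0 0
  have h2 := h.re
  refine h2.congr (Filter.Eventually.of_forall fun z => ?_)
  simp only [gw]
  have : (-(b : ℂ) * (‖z‖ : ℂ) ^ 2 + 0 * ((⟪(0 : E), z⟫ : ℝ) : ℂ)) = ((-b * ‖z‖ ^ 2 : ℝ) : ℂ) := by
    push_cast; ring
  simp only [RCLike.re_eq_complex_re]
  rw [this, ← Complex.ofReal_exp, Complex.ofReal_re]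

/-- The total mass of the Gaussian. -/
def gm (E : Type*) [NormedAddCommGroup E] [InnerProductSpace ℝ E] [FiniteDimensional ℝ E]
    [MeasurableSpace E] [BorelSpace E] : ℝ := ∫ z : E, gw (1 / 4) z

theorem gm_pos : 0 < gm E := by
  unfold gm
  rw [integral_pos_iff_support_of_nonneg (fun z => (gw_pos _ z).le)
    (integrable_gw (by norm_num))]
  have : Function.support (gw (1 / 4) : E → ℝ) = univ := by
    ext z
    simp only [Function.mem_support, mem_univ, iff_true]
    exact (gw_pos _ z).ne'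
  rw [this]
  exact Measure.measure_univ_pos.2 (NeZero.ne _)

/-- The Gaussian kernel at time one. -/
def G (z : E) : ℝ := (gm E)⁻¹ * gw (1 / 4) z

theorem G_pos (z : E) : 0 < G z := mul_pos (inv_pos.2 gm_pos) (gw_pos _ _)

theorem integrable_G : Integrable (G : E → ℝ) := (integrable_gw (by norm_num)).const_mul _

theorem integral_G : ∫ z : E, G z = 1 := by
  unfold G
  rw [integral_const_mul]
  exact inv_mul_cancel₀ gm_pos.ne'

theorem hasFDerivAt_G (z : E) :
    HasFDerivAt (G : E → ℝ) (G z • (-(1 / 2 : ℝ)) • innerSL ℝ z) z := by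
  have h1 : HasFDerivAt (fun z : E => ‖z‖ ^ 2) (2 • (innerSL ℝ z)) z := by
    simpa using (hasStrictFDerivAt_norm_sq z).hasFDerivAt
  have h2 : HasFDerivAt (fun z : E => -(1 / 4 : ℝ) * ‖z‖ ^ 2)
      ((-(1 / 4 : ℝ)) • (2 • (innerSL ℝ z))) z := h1.const_mul _
  have h3 := (h2.exp).const_mul (gm E)⁻¹
  refine h3.congr_fderiv ?_
  ext u
  simp [G, gw]
  ring

/-- The product of the Gaussian with a function `p`. -/
def Gk (p : E → F) (z : E) : F := G z • p z

/-- The logarithmic derivative step. -/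
def pstep (p : E → F) (z : E) : E →L[ℝ] F :=
  fderiv ℝ p z + (-(1 / 2 : ℝ)) • (innerSL ℝ z).smulRight (p z)

theorem tg_pstep {p : E → F} (hp : p.HasTemperateGrowth) : (pstep p).HasTemperateGrowth := by
  unfold pstep
  refine (tg_fderiv hp).add ?_
  have h1 : (fun z : E => innerSL ℝ z).HasTemperateGrowth := (innerSL ℝ).hasTemperateGrowth
  have h2 := (ContinuousLinearMap.smulRightL ℝ E F).bilinear_hasTemperateGrowth h1 hp
  exact (Function.HasTemperateGrowth.const (-(1 / 2 : ℝ))).smul h2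

theorem hasFDerivAt_Gk {p : E → F} (hp : p.HasTemperateGrowth) (z : E) :
    HasFDerivAt (Gk p) (Gk (pstep p) z) z := by
  have h1 : HasFDerivAt p (fderiv ℝ p z) z :=
    (hp.1.differentiable (by simp)).differentiableAt.hasFDerivAt
  have h2 := (hasFDerivAt_G z).smul h1
  refine h2.congr_fderiv ?_
  ext u
  simp [Gk, pstep, smul_smul, smul_add, smul_sub]

theorem Gk_bound {p : E → F} (hp : p.HasTemperateGrowth) :
    ∃ C : ℝ, 0 ≤ C ∧ ∀ z, ‖Gk p z‖ ≤ C * gw (1 / 8) z := by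
  obtain ⟨k, C, h⟩ := hp.2 0
  obtain ⟨C', hC', h'⟩ := pow_mul_gw_le (E := E) k (a := 1 / 4) (b := 1 / 8) (by norm_num)
  have hg := gm_pos (E := E)
  refine ⟨(gm E)⁻¹ * (|C| * C'), by positivity, fun z => ?_⟩
  have h1 : ‖p z‖ ≤ |C| * (1 + ‖z‖) ^ k := by
    have := h z
    rw [norm_iteratedFDeriv_zero] at this
    exact this.trans (mul_le_mul_of_nonneg_right (le_abs_self _) (by positivity))
  have h2 : 0 < gw (1 / 4) z := gw_pos _ _
  calc ‖Gk p z‖ = (gm E)⁻¹ * (gw (1 / 4) z * ‖p z‖) := by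
        rw [Gk, norm_smul, Real.norm_eq_abs, abs_of_pos (G_pos z), G]; ring
    _ ≤ (gm E)⁻¹ * (gw (1 / 4) z * (|C| * (1 + ‖z‖) ^ k)) := by gcongr
    _ = (gm E)⁻¹ * (|C| * ((1 + ‖z‖) ^ k * gw (1 / 4) z)) := by ring
    _ ≤ (gm E)⁻¹ * (|C| * (C' * gw (1 / 8) z)) :=
        mul_le_mul_of_nonneg_left (mul_le_mul_of_nonneg_left (h' z) (abs_nonneg _))
          (inv_nonneg.2 hg.le)
    _ = _ := by ring

theorem continuous_Gk {p : E → F} (hp : p.HasTemperateGrowth) : Continuous (Gk p) := by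
  have h1 : Continuous (G : E → ℝ) := continuous_const.mul (continuous_gw _)
  exact h1.smul hp.1.continuous

/-- The kernel class: dominated by a Gaussian, continuous, with derivative in the class. -/
structure Kern (k : E → F) : Prop where
  cont : Continuous k
  bd : ∃ C : ℝ, 0 ≤ C ∧ ∀ z, ‖k z‖ ≤ C * gw (1 / 8) z

theorem kern_Gk {p : E → F} (hp : p.HasTemperateGrowth) : Kern (Gk p) :=
  ⟨continuous_Gk hp, Gk_bound hp⟩

theorem Kern.integrable {k : E → F} (hk : Kern k) : Integrable k := by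
  obtain ⟨C, hC, h⟩ := hk.bd
  exact ((integrable_gw (by norm_num : (0 : ℝ) < 1 / 8)).const_mul C).mono'
    hk.cont.aestronglyMeasurable (Filter.Eventually.of_forall h)

theorem rpow_le_one_add {a x : ℝ} (ha : 0 ≤ a) (ha1 : a ≤ 1) (hx : 0 ≤ x) : x ^ a ≤ 1 + x := by
  rcases le_total x 1 with h | h
  · have := Real.rpow_le_one hx h ha
    linarith
  · calc x ^ a ≤ x ^ (1 : ℝ) := Real.rpow_le_rpow_of_exponent_le h ha1
      _ = x := Real.rpow_one x
      _ ≤ 1 + x := by linarith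

theorem Kern.integrable_moment {k : E → F} (hk : Kern k) {a : ℝ} (ha : 0 ≤ a) (ha1 : a ≤ 1) :
    Integrable (fun z => ‖z‖ ^ a * ‖k z‖) := by
  obtain ⟨C, hC, h⟩ := hk.bd
  obtain ⟨C', hC', h'⟩ := pow_mul_gw_le (E := E) 1 (a := 1 / 8) (b := 1 / 16) (by norm_num)
  refine ((integrable_gw (by norm_num : (0 : ℝ) < 1 / 16)).const_mul (C * C')).mono' ?_ ?_
  · refine Continuous.aestronglyMeasurable ?_
    exact (continuous_norm.rpow_const (fun _ => Or.inr ha)).mul hk.cont.norm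
  · refine Filter.Eventually.of_forall fun z => ?_
    rw [Real.norm_of_nonneg (by positivity)]
    have h1 := rpow_le_one_add ha ha1 (norm_nonneg z)
    have h3 : 0 < gw (1 / 8) z := gw_pos _ _
    calc ‖z‖ ^ a * ‖k z‖ ≤ (1 + ‖z‖) * (C * gw (1 / 8) z) := by
          gcongr
          exact h z
      _ = C * ((1 + ‖z‖) ^ 1 * gw (1 / 8) z) := by ring
      _ ≤ C * (C' * gw (1 / 16) z) := mul_le_mul_of_nonneg_left (h' z) hC
      _ = _ := by ring

end Vale.Agent.P272.K.H
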